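import Mathlib

/-!
# P199: lengths after localisation at a prime and their behaviour in finite extensions

`lenAt C N` is the length of the localisation of `N` at `C`. For a finite extension `T` of a
domain `S` and a prime `C` just above zero, the length of `T/fT` at `C` is the rank times the
length of `S/fS`, and also the weighted sum of the lengths at the primes of `T` over `C`.
-/

namespace Vale.Agent.P199.Mult.Push

open LinearMap

variable {S : Type*} [CommRing S]

/-- Length of the localisation at a prime. -/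
noncomputable def lenAt (C : Ideal S) [C.IsPrime] (M : Type*) [AddCommGroup M] [Module S M] : ℕ∞ :=
  Module.length (Localization.AtPrime C) (LocalizedModule C.primeCompl M)

variable (C : Ideal S) [hCp : C.IsPrime]
variable {N M Q : Type*} [AddCommGroup N] [Module S N] [AddCommGroup M] [Module S M]
  [AddCommGroup Q] [Module S Q]

theorem lenAt_add (i : N →ₗ[S] M) (p : M →ₗ[S] Q) (hi : Function.Injective i)
    (hp : Function.Surjective p) (hip : Function.Exact i p) :
    lenAt C M = lenAt C N + lenAt C Q :=
  Module.length_eq_add_of_exact (LocalizedModule.map C.primeCompl i)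
    (LocalizedModule.map C.primeCompl p) (LocalizedModule.map_injective _ i hi)
    (LocalizedModule.map_surjective _ p hp) (LocalizedModule.map_exact _ i p hip)

variable (M) in
theorem lenAt_zero (h : ∀ x : M, ∃ t ∉ C, t • x = 0) : lenAt C M = 0 := by
  rw [lenAt, Module.length_eq_zero_iff, LocalizedModule.subsingleton_iff]
  exact fun x => h x

variable (M) in
theorem lenAt_subsingleton [Subsingleton M] : lenAt C M = 0 :=
  lenAt_zero C M fun _ => ⟨1, fun h => hCp.ne_top ((Ideal.eq_top_iff_one _).mpr h),
    Subsingleton.elim _ _⟩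

theorem lenAt_congr (e : N ≃ₗ[S] M) : lenAt C N = lenAt C M := by
  have : Subsingleton PUnit := inferInstance
  rw [lenAt_add C e.toLinearMap (0 : M →ₗ[S] PUnit) e.injective
    (Function.surjective_to_subsingleton _) ((e.exact_zero_iff_surjective _).2 e.surjective),
    lenAt_subsingleton C PUnit, add_zero]

theorem lenAt_quot (J : Ideal S) : lenAt C (S ⧸ J) =
    Module.length (Localization.AtPrime C)
      (Localization.AtPrime C ⧸ J.map (algebraMap S (Localization.AtPrime C))) := by
  set L := Localization.AtPrime C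
  have := IsLocalizedModule.toLocalizedQuotient' L C.primeCompl (Algebra.linearMap S L) J
  have e : LocalizedModule C.primeCompl (S ⧸ J) ≃ₗ[S]
      L ⧸ Submodule.localized' L C.primeCompl (Algebra.linearMap S L) J :=
    IsLocalizedModule.linearEquiv C.primeCompl
      (LocalizedModule.mkLinearMap C.primeCompl (S ⧸ J))
      (Submodule.toLocalizedQuotient' L C.primeCompl (Algebra.linearMap S L) J)
  unfold lenAt
  rw [(e.extendScalarsOfIsLocalization C.primeCompl L).length_eq, Ideal.localized'_eq_map]

theorem lenAt_span (f : S) : lenAt C (S ⧸ Ideal.span {f}) =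
    Ring.ord (Localization.AtPrime C) (algebraMap S _ f) := by
  rw [lenAt_quot, Ideal.map_span, Set.image_singleton]
  rfl

theorem lenAt_self : lenAt C (S ⧸ C) = 1 := by
  set L := Localization.AtPrime C
  rw [lenAt_quot, Localization.AtPrime.map_eq_maximalIdeal, Module.length_eq_one_iff,
    isSimpleModule_iff_isSimpleModule_of_algebraMap_surjective
      (S := L ⧸ IsLocalRing.maximalIdeal L) Ideal.Quotient.mk_surjective]
  let := Ideal.Quotient.field (IsLocalRing.maximalIdeal L)
  exact instIsSimpleModule _

theorem lenAt_comp (u : N →ₗ[S] M) (v : M →ₗ[S] Q) (hv : Function.Injective v) :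
    lenAt C (Q ⧸ range (v ∘ₗ u)) = lenAt C (M ⧸ range u) + lenAt C (Q ⧸ range v) := by
  refine lenAt_add C (Submodule.mapQ _ _ v ?_)
    (Submodule.factor (range_comp_le_range u v)) ?_ (Submodule.factor_surjective _) ?_
  · rintro _ ⟨x, rfl⟩
    exact ⟨x, rfl⟩
  · rw [← ker_eq_bot, Submodule.mapQ, Submodule.ker_liftQ, eq_bot_iff]
    rintro _ ⟨x, hx, rfl⟩
    have hx' : v x ∈ range (v ∘ₗ u) := (Submodule.Quotient.mk_eq_zero _).1 hx
    obtain ⟨y, hy⟩ := hx'
    exact (Submodule.Quotient.mk_eq_zero _).2 ⟨y, hv hy⟩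
  · intro x
    obtain ⟨x, rfl⟩ := Submodule.mkQ_surjective _ x
    constructor
    · intro hx
      have hx' : x ∈ range v := (Submodule.Quotient.mk_eq_zero _).1 hx
      obtain ⟨y, rfl⟩ := hx'
      exact ⟨Submodule.Quotient.mk y, rfl⟩
    · rintro ⟨y, hy⟩
      obtain ⟨y, rfl⟩ := Submodule.mkQ_surjective _ y
      rw [← hy]
      exact (Submodule.Quotient.mk_eq_zero _).2 ⟨y, rfl⟩

theorem lenAt_pi (n : ℕ) : lenAt C (Fin n → N) = n * lenAt C N := by
  induction n with
  | zero => rw [lenAt_subsingleton C (Fin 0 → N)]; simp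
  | succ n ih =>
    rw [← lenAt_congr C (Fin.consLinearEquiv S fun _ : Fin (n + 1) => N),
      lenAt_add C (LinearMap.inl S N (Fin n → N)) (LinearMap.snd S N (Fin n → N))
        LinearMap.inl_injective LinearMap.snd_surjective .inl_snd, ih]
    push_cast
    ring

omit [AddCommGroup N] [Module S N] in
theorem lenAt_pi_smul (f : S) (n : ℕ) :
    lenAt C ((Fin n → S) ⧸ range (lsmul S (Fin n → S) f)) = n * lenAt C (S ⧸ Ideal.span {f}) := by
  rw [← lenAt_pi C n]
  let π : (Fin n → S) →ₗ[S] (Fin n → S ⧸ Ideal.span {f}) :=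
    LinearMap.pi fun i => (Submodule.mkQ (Ideal.span {f})).comp (LinearMap.proj i)
  have hker : ker π = range (lsmul S (Fin n → S) f) := by
    ext x
    constructor
    · intro hx
      have : ∀ i, ∃ a, a * f = x i := fun i => Ideal.mem_span_singleton'.1
        ((Submodule.Quotient.mk_eq_zero _).1 (congrFun hx i))
      choose a ha using this
      exact ⟨a, funext fun i => by simp [← ha i, mul_comm]⟩
    · rintro ⟨a, rfl⟩
      funext i
      exact (Submodule.Quotient.mk_eq_zero _).2 (Ideal.mul_mem_right _ _
        (Ideal.mem_span_singleton_self f))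
  have hπ : Function.Surjective π := fun x =>
    ⟨fun i => (Submodule.mkQ_surjective _ (x i)).choose,
      funext fun i => (Submodule.mkQ_surjective _ (x i)).choose_spec⟩
  exact lenAt_congr C ((Submodule.quotEquivOfEq _ _ hker.symm).trans
    (π.quotKerEquivOfSurjective hπ))

/-- A free submodule of full rank with quotient killed by one nonzero element. -/
theorem exists_free_sub (D : Type*) [CommRing D] [IsDomain D] (V : Type*) [AddCommGroup V]
    [Module D V] [Module.Finite D V] :
    ∃ i : (Fin (Module.finrank D V) → D) →ₗ[D] V, Function.Injective i ∧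
      ∃ a : D, a ≠ 0 ∧ ∀ x, a • x ∈ range i := by
  classical
  obtain ⟨v, hv⟩ := exists_linearIndependent_of_le_finrank (le_refl (Module.finrank D V))
  refine ⟨Fintype.linearCombination D v, hv.fintypeLinearCombination_injective, ?_⟩
  have hx : ∀ x : V, ∃ a : D, a ≠ 0 ∧ a • x ∈ Submodule.span D (Set.range v) := by
    intro x
    by_contra! h
    have hli : LinearIndependent D (Fin.cons x v : Fin (Module.finrank D V + 1) → V) := by
      refine hv.finCons' x v ?_
      intro c y hy hc
      by_contra hne
      exact h c hne (by rw [eq_neg_of_add_eq_zero_left hc]; exact neg_mem hy)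
    have := hli.fintype_card_le_finrank
    simp at this
  obtain ⟨G, hG⟩ := (Module.Finite.fg_top : (⊤ : Submodule D V).FG)
  choose a ha0 ha using hx
  refine ⟨∏ g ∈ G, a g, Finset.prod_ne_zero_iff.2 fun g _ => ha0 g, fun x => ?_⟩
  rw [Fintype.range_linearCombination]
  have hxG : x ∈ Submodule.span D (G : Set V) := hG ▸ Submodule.mem_top
  induction hxG using Submodule.span_induction with
  | mem g hg =>
    rw [← Finset.prod_erase_mul _ _ hg, mul_smul]
    exact Submodule.smul_mem _ _ (ha g)
  | zero => simp
  | add x y _ _ hx hy => rw [smul_add]; exact Submodule.add_mem _ hx hy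
  | smul c x _ hx => rw [smul_comm]; exact Submodule.smul_mem _ _ hx

/-- A finite module killed by `C` has length at `C` equal to its rank over `S/C`. -/
theorem lenAt_eq_finrank (V : Type*) [AddCommGroup V] [Module S V] [Module (S ⧸ C) V]
    [IsScalarTower S (S ⧸ C) V] [Module.Finite (S ⧸ C) V] :
    lenAt C V = Module.finrank (S ⧸ C) V := by
  obtain ⟨i, hi, a, ha0, ha⟩ := exists_free_sub (S ⧸ C) V
  obtain ⟨a, rfl⟩ := Ideal.Quotient.mk_surjective a
  have haC : a ∉ C := fun h => ha0 (Ideal.Quotient.eq_zero_iff_mem.2 h)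
  let i' := i.restrictScalars S
  have hz : lenAt C (V ⧸ range i') = 0 := by
    refine lenAt_zero C _ fun x => ⟨a, haC, ?_⟩
    obtain ⟨x, rfl⟩ := Submodule.mkQ_surjective _ x
    rw [Submodule.mkQ_apply, ← Submodule.Quotient.mk_smul, Submodule.Quotient.mk_eq_zero]
    obtain ⟨y, hy⟩ := ha x
    refine ⟨y, hy.trans ?_⟩
    rw [← Ideal.Quotient.algebraMap_eq, IsScalarTower.algebraMap_smul]
  rw [lenAt_add C i' (range i').mkQ hi (Submodule.mkQ_surjective _)
    (LinearMap.exact_map_mkQ_range i'), hz, add_zero, lenAt_pi, lenAt_self, mul_one]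

variable [IsDomain S]

variable (hC1 : ∀ p : Ideal S, p.IsPrime → p ≠ ⊥ → p ≤ C → p = C)

include hC1 in
omit [IsDomain S] in
theorem lenAt_ne_top [IsNoetherianRing S] {a : S} (ha : a ≠ 0) (V : Type*) [AddCommGroup V]
    [Module S V] (hV : Module.Finite S V) (haV : ∀ x : V, a • x = 0) : lenAt C V ≠ ⊤ := by
  induction hV using IsNoetherianRing.induction_on_isQuotientEquivQuotientPrime S with
  | subsingleton N => simp [lenAt_subsingleton C N]
  | quotient N p e =>
    have hap : a ∈ p.1 := by
      have h := haV (e.symm (Ideal.Quotient.mk _ 1))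
      rw [← map_smul, LinearEquiv.map_eq_zero_iff, Algebra.smul_def] at h
      simpa [Ideal.Quotient.eq_zero_iff_mem] using h
    rw [lenAt_congr C e]
    by_cases hpC : p.1 ≤ C
    · obtain rfl := hC1 p.1 p.2 (fun h => ha (by simpa [h] using hap)) hpC
      simp [lenAt_self]
    · obtain ⟨t, htp, htC⟩ := SetLike.not_le_iff_exists.mp hpC
      rw [lenAt_zero C (S ⧸ p.1) fun x => ⟨t, htC, ?_⟩]
      · simp
      obtain ⟨x, rfl⟩ := Ideal.Quotient.mk_surjective x
      rw [Algebra.smul_def, Ideal.Quotient.algebraMap_eq, ← map_mul,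
        Ideal.Quotient.eq_zero_iff_mem]
      exact p.1.mul_mem_right x htp
  | exact N₁ N₂ N₃ i q hi hq hiq ih1 ih3 =>
    rw [lenAt_add C i q hi hq hiq]
    refine WithTop.add_ne_top.mpr ⟨ih1 fun x => hi (by rw [map_smul, haV, map_zero]), ih3 fun x => ?_⟩
    obtain ⟨x, rfl⟩ := hq x
    rw [← map_smul, haV, map_zero]

include hC1 in
/-- Multiplication by `f` on a finite torsion-free module. -/
theorem lenAt_rank [IsNoetherianRing S] {f : S} (V : Type*) [AddCommGroup V] [Module S V]
    [Module.Finite S V] (hfV : Function.Injective (lsmul S V f)) :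
    lenAt C (V ⧸ range (lsmul S V f)) = Module.finrank S V * lenAt C (S ⧸ Ideal.span {f}) := by
  obtain ⟨i, hi, a, ha0, ha⟩ := exists_free_sub S V
  have hfin : lenAt C (V ⧸ range i) ≠ ⊤ := by
    refine lenAt_ne_top C hC1 ha0 _ inferInstance fun x => ?_
    obtain ⟨x, rfl⟩ := Submodule.mkQ_surjective _ x
    rw [Submodule.mkQ_apply, ← Submodule.Quotient.mk_smul, Submodule.Quotient.mk_eq_zero]
    exact ha x
  have h1 := lenAt_comp C i (lsmul S V f) hfV
  have h2 := lenAt_comp C (lsmul S (Fin (Module.finrank S V) → S) f) i hi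
  have he : range (i ∘ₗ lsmul S (Fin (Module.finrank S V) → S) f) = range (lsmul S V f ∘ₗ i) := by
    congr 1
    ext x
    simp
  rw [← he] at h1
  rw [h2, lenAt_pi_smul, add_comm] at h1
  refine ENat.add_left_injective_of_ne_top hfin ?_
  exact (add_comm _ _).trans (h1.symm.trans (add_comm _ _))

include hC1 in
/-- The length over the base as a weighted sum over the primes of the fibre. -/
theorem lenAt_fibre {T : Type*} [CommRing T] [IsDomain T] [IsNoetherianRing T] [Algebra S T]
    [FaithfulSMul S T] [Algebra.IsIntegral S T] (s : Finset (PrimeSpectrum T))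
    (hs : ∀ q : PrimeSpectrum T, q ∈ s ↔ q.asIdeal.under S = C) {g : T} (hg : g ≠ 0)
    (V : Type*) [AddCommGroup V] [Module T V] (hV : Module.Finite T V)
    (hgV : ∀ x : V, g • x = 0) :
    ∀ [Module S V] [IsScalarTower S T V],
      lenAt C V = ∑ q ∈ s, lenAt C (T ⧸ q.asIdeal) * lenAt q.asIdeal V := by
  induction hV using IsNoetherianRing.induction_on_isQuotientEquivQuotientPrime T with
  | subsingleton N =>
    intro _ _
    rw [lenAt_subsingleton C N, Finset.sum_eq_zero]
    intro q _
    rw [lenAt_subsingleton q.asIdeal N, mul_zero]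
  | quotient N p e =>
    intro _ _
    have hgp : g ∈ p.1 := by
      have h := hgV (e.symm (Ideal.Quotient.mk _ 1))
      rw [← map_smul, LinearEquiv.map_eq_zero_iff, Algebra.smul_def] at h
      simpa [Ideal.Quotient.eq_zero_iff_mem] using h
    simp only [fun q : PrimeSpectrum T => lenAt_congr q.asIdeal e,
      lenAt_congr C (e.restrictScalars S)]
    have hpne : p.1.under S ≠ ⊥ := fun h => hg (by
      have := Ideal.eq_bot_of_comap_eq_bot (R := S) h
      simpa [this] using hgp)
    have hz : ∀ q ∈ s, q ≠ p → lenAt q.asIdeal (T ⧸ p.1) = 0 := by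
      intro q hq hne
      have hle : ¬ p.1 ≤ q.asIdeal := fun hle => by
        rcases hle.eq_or_lt with h | h
        · exact hne (PrimeSpectrum.ext h.symm)
        · have h1 := Ideal.IsIntegral.comap_lt_comap (R := S) h
          have h2 := (hs q).1 hq
          rw [← h2] at hC1
          exact h1.ne (hC1 _ inferInstance hpne h1.le)
      obtain ⟨t, htp, htq⟩ := SetLike.not_le_iff_exists.mp hle
      refine lenAt_zero q.asIdeal _ fun x => ⟨t, htq, ?_⟩
      obtain ⟨x, rfl⟩ := Ideal.Quotient.mk_surjective x
      rw [Algebra.smul_def, Ideal.Quotient.algebraMap_eq, ← map_mul,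
        Ideal.Quotient.eq_zero_iff_mem]
      exact p.1.mul_mem_right x htp
    by_cases hp : p ∈ s
    · rw [Finset.sum_eq_single_of_mem p hp fun q hq hne => by rw [hz q hq hne, mul_zero],
        lenAt_self, mul_one]
    · rw [Finset.sum_eq_zero fun q hq => by
        rw [hz q hq (fun h => hp (h ▸ hq)), mul_zero]]
      have hle : ¬ p.1.under S ≤ C := fun hle =>
        hp ((hs p).2 (hC1 _ inferInstance hpne hle))
      obtain ⟨t, htp, htC⟩ := SetLike.not_le_iff_exists.mp hle
      refine lenAt_zero C _ fun x => ⟨t, htC, ?_⟩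
      obtain ⟨x, rfl⟩ := Ideal.Quotient.mk_surjective x
      rw [Algebra.smul_def, IsScalarTower.algebraMap_apply S T (T ⧸ p.1),
        Ideal.Quotient.algebraMap_eq, ← map_mul, Ideal.Quotient.eq_zero_iff_mem]
      exact p.1.mul_mem_right x htp
  | exact N₁ N₂ N₃ i q hi hq hiq ih1 ih3 =>
    intro _ _
    let _ : Module S N₁ := Module.compHom N₁ (algebraMap S T)
    have : IsScalarTower S T N₁ := IsScalarTower.of_algebraMap_smul fun _ _ => rfl
    let _ : Module S N₃ := Module.compHom N₃ (algebraMap S T)
    have : IsScalarTower S T N₃ := IsScalarTower.of_algebraMap_smul fun _ _ => rfl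
    rw [lenAt_add C (i.restrictScalars S) (q.restrictScalars S) hi hq hiq,
      ih1 fun x => hi (by rw [map_smul, hgV, map_zero]),
      ih3 fun x => by obtain ⟨x, rfl⟩ := hq x; rw [← map_smul, hgV, map_zero],
      ← Finset.sum_add_distrib]
    refine Finset.sum_congr rfl fun P _ => ?_
    rw [lenAt_add P.asIdeal i q hi hq hiq, mul_add]

end Vale.Agent.P199.Mult.Push
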